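import Vale.Agent.P359.Plain

/-!
# P359: a bound below two on the gap of the Laughlin Hamiltonian, uniform in the particle number
-/

open Matrix

namespace Vale.Agent.Results.P359.GapBelowTwo

open Vale.Agent.P359

/-- At flux `Q = 3 (N - 1)` the Laughlin vector is a nonzero antisymmetric zero state, and any
constant in the gap inequality is at most `(2 Q - 1) / (Q + 1)`, hence below two. -/
theorem result : ∀ N Q : ℕ, 2 ≤ N → Q = 3 * (N - 1) →
    (∃ P, IsPairProj Q P) ∧ ∀ P, IsPairProj Q P →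
      (Antisymm (laughlin N Q) ∧ laughlin N Q ≠ 0 ∧ pairHam N Q P *ᵥ laughlin N Q = 0) ∧
      ∀ δ : ℝ, GapAtLeast (pairHam N Q P) (laughlin N Q) δ →
        δ ≤ (2 * (Q : ℝ) - 1) / ((Q : ℝ) + 1) ∧ δ < 2 := by
  intro N Q hN hQ
  refine ⟨⟨_, isPairProj_pairProj Q⟩, fun P hP => ?_⟩
  rw [hP.eq, pairHam_pairProj]
  refine ⟨⟨laughlin_antisymm, laughlin_ne_zero hQ.ge, hamiltonian_laughlin hQ⟩, fun δ h => ?_⟩
  have h1 := gap_le hN hQ δ h
  refine ⟨h1, h1.trans_lt ?_⟩
  rw [div_lt_iff₀ (by positivity)]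
  linarith

end Vale.Agent.Results.P359.GapBelowTwo
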