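import Vale.Agent.P359.Gap.Assembly
import Vale.Agent.P359.Gap.Cert.Main

/-!
# P359: the uniform spectral gap of the spherical Laughlin Hamiltonian at filling one third
-/

open Matrix

namespace Vale.Agent.Results.P359.UniformGap

open Vale.Agent.P359

/-- There are a positive constant and a particle number from which on the Hamiltonian at Laughlin
flux is at least that constant on antisymmetric states orthogonal to the Laughlin vector, which is
a nonzero antisymmetric zero state. -/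
theorem result : ∃ δ : ℝ, 0 < δ ∧ ∃ N₀ : ℕ, 2 ≤ N₀ ∧ ∀ N Q : ℕ, N₀ ≤ N → Q = 3 * (N - 1) →
    (∃ P, IsPairProj Q P) ∧ ∀ P, IsPairProj Q P →
      (Antisymm (laughlin N Q) ∧ laughlin N Q ≠ 0 ∧ pairHam N Q P *ᵥ laughlin N Q = 0) ∧
      GapAtLeast (pairHam N Q P) (laughlin N Q) δ := by
  obtain ⟨δ, hδ, N₀, h2, h⟩ := Gap.gap_of_cert Gap.Cert.cert
  refine ⟨δ, hδ, N₀, h2, fun N Q hN hQ => ⟨⟨_, isPairProj_pairProj Q⟩, fun P hP => ⟨?_, ?_⟩⟩⟩
  · rw [hP.eq, pairHam_pairProj]
    exact ⟨laughlin_antisymm, laughlin_ne_zero hQ.ge, hamiltonian_laughlin hQ⟩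
  · subst hQ
    exact h N hN P hP

end Vale.Agent.Results.P359.UniformGap
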